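import Vale.Agent.P354CB.Ez

/-!
Limits of sequences of future curves whose starting points are not in the past of S.
-/

open Set Filter Topology Metric

namespace Vale.Agent.P354CB47

open Vale.Agent.P354n
open Vale.Agent.P354CB

theorem seq {α : Type} (P : ℕ → α → Prop) (R : α → α → Prop) (a : α) (h0 : P 0 a)
    (hs : ∀ n a, P n a → ∃ b, P (n + 1) b ∧ R a b) :
    ∃ f : ℕ → α, ∀ n, P n (f n) ∧ R (f n) (f (n + 1)) := by
  choose g g1 g2 using hs
  let f : (n : ℕ) → {x // P n x} := fun n =>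
    Nat.rec ⟨a, h0⟩ (fun n x => ⟨g n x.1 x.2, g1 n x.1 x.2⟩) n
  exact ⟨fun n => (f n).1, fun n => ⟨(f n).2, g2 n (f n).1 (f n).2⟩⟩

/-- The last exit from a ball. -/
theorem last {Z : Type} [MetricSpace Z] {c : ℝ → Z} {s r : ℝ} {p : Z} (hs : 0 ≤ s)
    (hc : ContinuousOn c (Icc 0 s)) (h : dist (c s) p < r) :
    ∃ t ∈ Icc 0 s, MapsTo c (Icc t s) (closedBall p r) ∧ (t = 0 ∨ r ≤ dist (c t) p) := by
  by_cases k : (Icc 0 s ∩ c ⁻¹' (ball p r)ᶜ).Nonempty
  · obtain ⟨t, ⟨t1, t2⟩, t3⟩ := (isCompact_Icc.of_isClosed_subset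
      (hc.preimage_isClosed_of_isClosed isClosed_Icc isOpen_ball.isClosed_compl)
      inter_subset_left).exists_isGreatest k
    have l : t < s := t1.2.lt_of_ne fun e => t2 (by rwa [e])
    refine ⟨t, t1, ?_, Or.inr (not_lt.1 t2)⟩
    have m : MapsTo c (Ioc t s) (closedBall p r) := fun u hu => ball_subset_closedBall (by
      by_contra n
      exact hu.1.not_ge (t3 ⟨⟨t1.1.trans hu.1.le, hu.2⟩, n⟩))
    have := m.closure_of_continuousOn (by
      rw [closure_Ioc l.ne]; exact hc.mono (Icc_subset_Icc_left t1.1))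
    rwa [closure_Ioc l.ne, isClosed_closedBall.closure_eq] at this
  · refine ⟨0, left_mem_Icc.2 hs, fun u hu => ball_subset_closedBall ?_, Or.inl rfl⟩
    by_contra n
    exact k ⟨u, hu, n⟩

/-- Limits of ends of curves in V are causally related. -/
def Pu (M : Spc) (V : Set M.pt) : Prop := ∀ a ∈ V, ∀ b ∈ V, (a, b) ∈ closure {q : M.pt × M.pt |
  ∃ c, Cv M (Icc 0 1) c ∧ MapsTo c (Icc 0 1) V ∧ c 0 = q.1 ∧ c 1 = q.2} → Le M a b

theorem Pu.mono {M : Spc} {V W : Set M.pt} (h : Pu M V) (k : W ⊆ V) : Pu M W :=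
  fun a ha b hb l => h a (k ha) b (k hb)
    (closure_mono (fun _ m => m.imp fun _ n => ⟨n.1, n.2.1.mono_right k, n.2.2⟩) l)

theorem lim (L : L1) (hG : GONE) : LIM := by
  intro M S H ι F a b y h hb
  have G := hG M S H
  have st := H.st
  have := L.b.met M H.sc
  have := L.b.lc M
  let _ : MetricSpace M.pt := TopologicalSpace.metrizableSpaceMetric M.pt
  by_contra! n
  have : ∀ i, ∃ c : ℝ → M.pt, LL M (a i) (b i) → Cv M (Icc 0 1) c ∧ c 0 = a i ∧ c 1 = b i :=
    fun i => by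
      by_cases k : LL M (a i) (b i)
      · exact k.imp fun _ l _ => l
      · exact ⟨fun _ => y, fun l => (k l).elim⟩
  choose c hc using this
  replace hc := h.mono fun i k => hc i k.1
  let Gd : M.pt → ℝ → Prop := fun p r =>
    0 < r ∧ r ≤ 1 ∧ IsCompact (closedBall p r) ∧ Pu M (closedBall p r)
  have g0 : ∀ p, ∃ r, Gd p r := fun p => by
    obtain ⟨V, V1, V2⟩ := L.pu M st p
    obtain ⟨K, K1, K2, K3⟩ := local_compact_nhds V1
    obtain ⟨r, r0, r1⟩ := nhds_basis_closedBall.mem_iff.1 K1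
    have s := (closedBall_subset_closedBall (x := p) (min_le_left r 1)).trans r1
    exact ⟨min r 1, lt_min r0 one_pos, min_le_right _ _,
      K3.of_isClosed_subset isClosed_closedBall s, Pu.mono V2 (s.trans K2)⟩
  have g1 : ∀ p, ∃ r, Gd p r ∧ ∀ r', Gd p r' → r' ≤ 2 * r := fun p => by
    obtain ⟨r, hr⟩ := g0 p
    have bd : BddAbove {r | Gd p r} := ⟨1, fun _ k => k.2.1⟩
    have := le_csSup bd hr
    obtain ⟨r', k, l⟩ := exists_lt_of_lt_csSup (s := {r | Gd p r}) ⟨r, hr⟩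
      (half_lt_self (hr.1.trans_le this))
    exact ⟨r', k, fun r'' m => by linarith [le_csSup bd m]⟩
  choose ρ ρ1 ρ2 using g1
  let P : M.pt → (ι → ℝ) → Prop := fun p s => Le M p y ∧ (∀ᶠ i in F, s i ∈ Icc (0 : ℝ) 1) ∧
    Tendsto (fun i => c i (s i)) F (𝓝 p)
  have np : ∀ p s, P p s → p ∉ Pa M S := fun p s k =>
    (L.opPa st S).isClosed_compl.mem_of_tendsto k.2.2 (by
      filter_upwards [h, hc, k.2.1] with i h1 h2 h3 m
      rcases h3.1.eq_or_lt with e | l
      · exact h1.2 (by rwa [← e, h2.2.1] at m)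
      · exact h1.2 (L.pa_dn st m (h2.2.1 ▸ L.b.ll_cv st h2.1 (Icc_subset_Icc_right h3.2) l)))
  have step : ∀ p s, P p s → ∃ p' s', P p' s' ∧ Le M p' p ∧ ρ p ≤ dist p' p := by
    intro p s ⟨k1, k2, k3⟩
    obtain ⟨r0, -, r1, r2⟩ := ρ1 p
    have e : ∀ᶠ i in F, ∃ t ∈ Icc 0 (s i), MapsTo (c i) (Icc t (s i)) (closedBall p (ρ p)) ∧
        (t = 0 ∨ ρ p ≤ dist (c i t) p) := by
      filter_upwards [hc, k2, k3.eventually (ball_mem_nhds p r0)] with i h1 h2 h3
      exact last h2.1 (h1.1.1.mono (Icc_subset_Icc_right h2.2)) h3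
    obtain ⟨t, ht⟩ := e.choice
    obtain ⟨p', p1, p2⟩ := r1.ultrafilter_le_nhds (F.map fun i => c i (t i)) (le_principal_iff.2
      (ht.mono fun i k => k.2.1 (left_mem_Icc.2 k.1.2)))
    replace p2 : Tendsto (fun i => c i (t i)) F (𝓝 p') := p2
    have le : Le M p' p := by
      rcases F.em fun i => t i = s i with m | m
      · rw [tendsto_nhds_unique (p2.congr' (m.mono fun i k => by simp only [k])) k3]
        exact Le.rfl
      · refine r2 _ p1 _ (mem_closedBall_self r0.le) (mem_closure_of_tendsto (p2.prodMk_nhds k3) ?_)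
        filter_upwards [hc, k2, ht, m] with i h1 h2 h3 h4
        have l : 0 < s i - t i := sub_pos.2 (h3.1.2.lt_of_ne h4)
        have mp : MapsTo (fun x : ℝ => t i + x * (s i - t i)) (Icc 0 1) (Icc (t i) (s i)) :=
          fun x hx => ⟨by nlinarith [hx.1], by nlinarith [hx.2]⟩
        exact ⟨_, L.b.aff st l (uniqueDiffOn_Icc one_pos)
          (mp.mono_right (Icc_subset_Icc h3.1.1 h2.2)) h1.1, h3.2.1.comp mp, by simp, by simp⟩
    rcases Ultrafilter.eventually_or.1 (ht.mono fun i k => k.2.2) with m | m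
    · refine (n p' (p2.congr' ?_) (le.trans k1)).elim
      filter_upwards [hc, m] with i h1 h2
      rw [h2, h1.2.1]
    · refine ⟨p', t, ⟨le.trans k1, ?_, p2⟩, le, ge_of_tendsto (p2.dist tendsto_const_nhds) m⟩
      filter_upwards [k2, ht] with i h1 h2
      exact ⟨h2.1.1, h2.1.2.trans h1.2⟩
  obtain ⟨q0, -, q1⟩ := mem_closure_iff_nhds.1 (L.b.nearF st y) _ (ball_mem_nhds y one_pos)
  obtain ⟨f, hf⟩ := seq (α := M.pt × M.pt × (ι → ℝ))
    (fun k z => P z.1 z.2.2 ∧ LL M z.1 z.2.1 ∧ (k ≠ 0 → dist z.2.1 z.1 < 1 / k))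
    (fun z z' => LL M z'.2.1 z.2.1 ∧ ρ z.1 ≤ dist z'.1 z.1) (y, q0, fun _ => 1)
    ⟨⟨Le.rfl, .of_forall fun _ => right_mem_Icc.2 zero_le_one,
      hb.congr' (hc.mono fun i k => k.2.2.symm)⟩, q1, fun k => (k rfl).elim⟩
    (fun k z hz => by
      obtain ⟨p', s', k1, k2, k3⟩ := step _ _ hz.1
      obtain ⟨q, m1, m2, m3⟩ := L.b.midP st (k2.1 _ hz.2.1) _
        (ball_mem_nhds p' (show (0 : ℝ) < 1 / ((k + 1 : ℕ) : ℝ) by positivity))
      exact ⟨(p', q, s'), ⟨k1, m2, fun _ => m1⟩, m3, k3⟩)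
  obtain ⟨x, hx⟩ := G.nochain (fun k => (f k).2.1) (fun k => (hf k).2.1)
    fun k m => np _ _ (hf k).1.1 (L.pa_dn st m (hf k).1.2.1)
  have tp : Tendsto (fun k => (f k).1) atTop (𝓝 x) := hx.congr_dist
    (squeeze_zero' (.of_forall fun _ => dist_nonneg) ((eventually_ne_atTop 0).mono
      fun k m => ((hf k).1.2.2 m).le) tendsto_one_div_atTop_nhds_zero_nat)
  obtain ⟨r, r0, r1, r2, r3⟩ := g0 x
  have d0 := ((tendsto_add_atTop_iff_nat 1).2 tp).dist tp
  rw [dist_self] at d0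
  obtain ⟨k, k1, k2⟩ := ((d0.eventually_lt_const (show 0 < r / 4 by positivity)).and
    (tp.eventually (closedBall_mem_nhds x (half_pos r0)))).exists
  have s : closedBall (f k).1 (r / 2) ⊆ closedBall x r :=
    closedBall_subset_closedBall' (by linarith [mem_closedBall.1 k2])
  have := ρ2 (f k).1 (r / 2) ⟨half_pos r0, by linarith,
    r2.of_isClosed_subset isClosed_closedBall s, r3.mono s⟩
  linarith [(hf k).2.2]

end Vale.Agent.P354CB47
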