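import Vale.Agent.P354CB.Ez

/-!
A common development extends along a short segment.
-/

open Set Filter Topology Metric

namespace Vale.Agent.P354CB47

open Vale.Agent.P354n
open Vale.Agent.P354CB
open Vale.Agent.P354XJ
open Vale.Agent.P354YC (iso_iff)

theorem run (T : L3) (hJ : JS) (hK : KEY) : RUN := by
  intro k k1
  have k0 : 0 < k := one_pos.trans_le k1
  obtain ⟨δ, δ0, hδ⟩ := hJ k k1
  refine ⟨min δ (2 / k), lt_min δ0 (by positivity), fun d hd B C e z v ok fit hv => ?_⟩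
  obtain ⟨U, ψ, e', m, m', c1, c2, c3, c4, c5, c6⟩ := fit
  obtain ⟨W, φ, w1, w2⟩ := T.max d hd B C
  have sub : ∀ x ∈ U, x ∈ W ∧ φ x = ψ x := fun x hx => (w2 _ _).1 ⟨U, ψ, c1, hx, rfl⟩
  have seg : ∀ t ∈ Icc (0 : ℝ) 1, z + t • v ∈ closedBall z (2 / k) := fun t ht => by
    rw [mem_closedBall, dist_self_add_left, norm_smul, Real.norm_of_nonneg ht.1]
    exact (mul_le_of_le_one_left (norm_nonneg _) ht.2).trans (hv.trans (min_le_right _ _))
  have z0 : z ∈ tgt e := (ok z (mem_closedBall_self (by positivity))).1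
  set F : R4 → R4 := fun y => co e' (φ (inv e y)) with hF
  have fe : F =ᶠ[𝓝 z] fun y => co e' (ψ (inv e y)) :=
    ((inv_cont z0).eventually (c1.hull.op.mem_nhds c2)).mono fun y hy =>
      congrArg (co e') (sub _ hy).2
  rw [← fe.fderiv_eq] at c6
  rw [← show F z = _ from fe.eq_of_nhds] at c5
  rw [← (sub _ c2).2] at c3
  let Gd : ℝ → Prop := fun t => inv e (z + t • v) ∈ W ∧ On e' (φ (inv e (z + t • v))) ∧
    ‖m' (F (z + t • v) - F z)‖ < 1 / k
  have ln : Continuous fun t : ℝ => z + t • v := by fun_prop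
  have hk : 1 / (2 * k) < 1 / k := one_div_lt_one_div_of_lt k0 (by linarith)
  have near : ∀ y ∈ tgt e, inv e y ∈ W → On e' (φ (inv e y)) →
      ∀ᶠ x in 𝓝 y, x ∈ tgt e ∧ inv e x ∈ W ∧ On e' (φ (inv e x)) := fun y a b c =>
    ((isOpen_tgt e).eventually_mem a).and (((inv_cont a).eventually (w1.hull.op.mem_nhds b)).and
      (((w1.lm _ b).1.comp (inv_cont a)).eventually (on_nhds c)))
  have key : ∀ s ∈ Icc (0 : ℝ) 1, (∀ t ∈ Ico 0 s, Gd t) → Gd s := by
    intro s hs h
    rcases hs.1.eq_or_lt with rfl | l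
    · simp only [Gd, zero_smul, add_zero, sub_self, map_zero, norm_zero]
      exact ⟨(sub _ c2).1, c3, by positivity⟩
    have m1 : ∀ t ∈ Ico 0 s, t ∈ Icc (0 : ℝ) 1 := fun t ht => ⟨ht.1, ht.2.le.trans hs.2⟩
    have e1 : ∀ y, F z + m (m' (y - F z)) = y := fun y => by rw [(c4 _).2, add_sub_cancel]
    have j := hδ _ _ _ _ _ _ (B.h.gh.st.lor e) (C.h.gh.st.lor e') F z v m m' s
      (hv.trans (min_le_left _ _)) hs.2 c4 c6 fun t ht =>
        ⟨(near _ (ok _ (seg t (m1 t ht))).1 (h t ht).1 (h t ht).2.1).mono fun x hx =>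
          ⟨hx.1, co_mem hx.2.2, iso_iff.1 (by
            simpa only [co_inv hx.1] using (w1.lm _ hx.2.1).2 e e' (inv_mem hx.1) hx.2.2)⟩,
          (ok _ (seg t (m1 t ht))).2, by simpa only [e1] using (c5 _ (h t ht).2.2.le).2⟩
    have tg : ∀ u ∈ closedBall (0 : R4) (1 / (2 * k)), F z + m u ∈ tgt e' := fun u hu =>
      (c5 u ((mem_closedBall_zero_iff.1 hu).trans hk.le)).1
    have cp : IsCompact ((fun u => inv e' (F z + m u)) '' closedBall (0 : R4) (1 / (2 * k))) :=
      (isCompact_closedBall _ _).image_of_continuousOn fun u hu =>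
        (ContinuousAt.comp (f := fun u => F z + m u) (inv_cont (tg u hu))
          (by fun_prop)).continuousWithinAt
    have ev : ∀ᶠ t in (Ultrafilter.of (𝓝[<] s) : Filter ℝ), t ∈ Ico 0 s :=
      Ultrafilter.of_le _ (Ico_mem_nhdsLT l)
    obtain ⟨_, ⟨u, hu, rfl⟩, p2⟩ := cp.ultrafilter_le_nhds ((Ultrafilter.of (𝓝[<] s)).map
      fun t => φ (inv e (z + t • v))) (le_principal_iff.2 (ev.mono fun t ht =>
        ⟨_, mem_closedBall_zero_iff.2 (j t ht), by
          simp only [e1]; exact inv_co (h t ht).2.1⟩))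
    have p1 : Tendsto (fun t => inv e (z + t • v)) (Ultrafilter.of (𝓝[<] s) : Filter ℝ)
        (𝓝 (inv e (z + s • v))) :=
      ((ContinuousAt.comp (f := fun t : ℝ => z + t • v) (inv_cont (ok _ (seg s hs)).1)
        ln.continuousAt).tendsto.mono_left nhdsWithin_le_nhds).mono_left (Ultrafilter.of_le _)
    obtain ⟨r1, r2⟩ := (w2 _ _).1 ((hK d hd B C).mem_of_tendsto (p1.prodMk_nhds p2)
      (ev.mono fun t ht => (w2 _ _).2 ⟨(h t ht).1, rfl⟩))
    refine ⟨r1, r2 ▸ inv_mem (tg u hu), ?_⟩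
    rw [show F (z + s • v) = F z + m u from (congrArg (co e') r2).trans (co_inv (tg u hu)),
      add_sub_cancel_left, (c4 u).1]
    exact (mem_closedBall_zero_iff.1 hu).trans_lt hk
  have cl : IsClosed {s : ℝ | ∀ t ∈ Ico 0 s, Gd t} := by
    rw [← isOpen_compl_iff, isOpen_iff_eventually]
    intro s hs
    obtain ⟨t, ht⟩ := not_forall.1 hs
    obtain ⟨t1, t2⟩ := Classical.not_imp.1 ht
    exact (lt_mem_nhds t1.2).mono fun s' h1 h2 => t2 (h2 t ⟨t1.1, h1⟩)
  have one := (cl.inter isClosed_Icc).Icc_subset_of_forall_mem_nhdsWithin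
    (a := 0) (b := 1) (fun t ht => (ht.2.not_ge ht.1).elim) (fun s ⟨h1, h2⟩ => by
      obtain ⟨g1, g2, g3⟩ := key s (Ico_subset_Icc_self h2) h1
      have a := (ok _ (seg s (Ico_subset_Icc_self h2))).1
      have cF : ContinuousAt F (z + s • v) :=
        ContinuousAt.comp (f := fun y => φ (inv e y)) (co_cont g2) ((w1.lm _ g1).1.comp (inv_cont a))
      have : ∀ᶠ t in 𝓝 s, Gd t := by
        filter_upwards [ln.continuousAt.eventually (near _ a g1 g2),
          (m'.continuous.continuousAt.comp ((ContinuousAt.comp (f := fun t : ℝ => z + t • v) cF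
            ln.continuousAt).sub continuousAt_const)).norm.eventually_lt_const g3] with t b c
        exact ⟨b.2.1, b.2.2, c⟩
      obtain ⟨u, u1, u2⟩ := (nhdsGE_basis_Ico s).eventually_iff.1 (this.filter_mono nhdsWithin_le_nhds)
      filter_upwards [Ioo_mem_nhdsGT u1] with s' h3 t h4
      exact (lt_or_ge t s).elim (fun b => h1 t ⟨h4.1, b⟩) fun b => u2 ⟨b, h4.2.trans h3.2⟩)
    (right_mem_Icc.2 zero_le_one)
  have := (key 1 (right_mem_Icc.2 zero_le_one) one).1
  rw [one_smul] at this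
  exact ⟨_, (w2 _ _).2 ⟨this, rfl⟩⟩

end Vale.Agent.P354CB47
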